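import Mathlib

/-! Definitions for the entropy photon-number inequality.

A Fock space is a complex Hilbert space with an orthonormal (Fock) basis indexed by the
occupation numbers; `ℓ²(ℕ^n)` with its standard basis is the model case. -/

namespace Vale.Agent.P369

/-- Occupation numbers of `n` modes. The `n`-mode Fock basis is indexed by `Occ n`, the
`2n`-mode Fock basis (modes `a_j` and `b_j`) by `Occ n × Occ n`. -/
abbrev Occ (n : ℕ) : Type := Fin n → ℕ

section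
variable {ι : Type} {H : Type} [NormedAddCommGroup H] [InnerProductSpace ℂ H] [CompleteSpace H]
  {K : Type} [NormedAddCommGroup K] [InnerProductSpace ℂ K] [CompleteSpace K]

/-- The coefficients `⟨k|ψ⟩` of a vector. -/
noncomputable def coeffs (e : HilbertBasis ι ℂ H) (ψ : H) (k : ι) : ℂ := inner ℂ (e k) ψ

/-- The matrix entry `⟨k| T |l⟩`. -/
noncomputable def entry (e : HilbertBasis ι ℂ H) (T : H →L[ℂ] H) (k l : ι) : ℂ :=
  inner ℂ (e k) (T (e l))

/-- Density operators: positive with trace one. -/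
def IsState (e : HilbertBasis ι ℂ H) (ρ : H →L[ℂ] H) : Prop :=
  ρ.IsPositive ∧ HasSum (fun k => entry e ρ k k) 1

/-- Finite mean photon number: `Tr ρ ∑_j a_j† a_j = ∑_k |k| ⟨k|ρ|k⟩` is finite. -/
def FiniteEnergy {n : ℕ} (e : HilbertBasis (Occ n) ℂ H) (ρ : H →L[ℂ] H) : Prop :=
  Summable (fun k : Occ n => (∑ j, (k j : ℝ)) * (entry e ρ k k).re)

/-- The diagonal entries `⟨k| -ρ log ρ |k⟩` (continuous functional calculus, `0 log 0 = 0`). -/
noncomputable def entropyTerm (e : HilbertBasis ι ℂ H) (ρ : H →L[ℂ] H) (k : ι) : ℝ :=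
  (entry e (cfc Real.negMulLog ρ) k k).re

/-- The von Neumann entropy `S(ρ) = - Tr ρ log ρ`. -/
noncomputable def entropy (e : HilbertBasis ι ℂ H) (ρ : H →L[ℂ] H) : ℝ :=
  ∑' k, entropyTerm e ρ k

/-- `g(t) = (t+1) log (t+1) - t log t`. -/
noncomputable def g (t : ℝ) : ℝ := (t + 1) * Real.log (t + 1) - t * Real.log t

/-- The inverse of `g : [0,∞) → [0,∞)`. -/
noncomputable def ginv : ℝ → ℝ := Function.invFunOn g (Set.Ici 0)

/-- The entropy photon number `N(ρ) = g⁻¹(S(ρ)/n)`. -/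
noncomputable def photonN {n : ℕ} (e : HilbertBasis (Occ n) ℂ H) (ρ : H →L[ℂ] H) : ℝ :=
  ginv (entropy e ρ / n)

/-- The annihilation operator `a_j` acting on coefficient sequences. -/
noncomputable def annA {n : ℕ} (j : Fin n) (ψ : Occ n × Occ n → ℂ) (x : Occ n × Occ n) : ℂ :=
  ((√((x.1 j : ℝ) + 1) : ℝ) : ℂ) * ψ (x.1 + Pi.single j 1, x.2)

/-- The annihilation operator `b_j` acting on coefficient sequences. -/
noncomputable def annB {n : ℕ} (j : Fin n) (ψ : Occ n × Occ n → ℂ) (x : Occ n × Occ n) : ℂ :=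
  ((√((x.2 j : ℝ) + 1) : ℝ) : ℂ) * ψ (x.1, x.2 + Pi.single j 1)

/-- The beam splitter of transmissivity `η`: a unitary fixing the vacuum with
`a_j U ψ = U (√η a_j + √(1-η) b_j) ψ` and `b_j U ψ = U (-√(1-η) a_j + √η b_j) ψ` for every
vector `ψ` such that the combination `φ` of `a_j ψ` and `b_j ψ` is a vector of the space. -/
def IsBeamSplitter {n : ℕ} (f : HilbertBasis (Occ n × Occ n) ℂ K) (η : ℝ) (U : K →L[ℂ] K) :
    Prop :=
  U ∈ unitary (K →L[ℂ] K) ∧ U (f 0) = f 0 ∧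
  (∀ (j : Fin n) (ψ φ : K),
    (∀ x, coeffs f φ x = ((√η : ℝ) : ℂ) * annA j (coeffs f ψ) x
        + ((√(1 - η) : ℝ) : ℂ) * annB j (coeffs f ψ) x) →
      ∀ x, annA j (coeffs f (U ψ)) x = coeffs f (U φ) x) ∧
  (∀ (j : Fin n) (ψ φ : K),
    (∀ x, coeffs f φ x = -((√(1 - η) : ℝ) : ℂ) * annA j (coeffs f ψ) x
        + ((√η : ℝ) : ℂ) * annB j (coeffs f ψ) x) →
      ∀ x, annB j (coeffs f (U ψ)) x = coeffs f (U φ) x)

/-- `σ = ρ ⊗ ρ'`. -/
def IsTensor (e : HilbertBasis ι ℂ H) (f : HilbertBasis (ι × ι) ℂ K) (ρ ρ' : H →L[ℂ] H)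
    (σ : K →L[ℂ] K) : Prop :=
  ∀ x y : ι × ι, entry f σ x y = entry e ρ x.1 y.1 * entry e ρ' x.2 y.2

/-- `ρ` is the trace of `ω` over the second factor. -/
def IsReduced (e : HilbertBasis ι ℂ H) (f : HilbertBasis (ι × ι) ℂ K) (ω : K →L[ℂ] K)
    (ρ : H →L[ℂ] H) : Prop :=
  ∀ k k' : ι, HasSum (fun l => entry f ω (k, l) (k', l)) (entry e ρ k k')

end

end Vale.Agent.P369
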